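import Vale.Agent.P181.H463.GtDef
import Vale.Agent.P181.T4.Typ
import Vale.Agent.P181.T4.Asm

set_option autoImplicit false

/-!
# P181, PL (P5): one branching step
-/

namespace Vale.Agent.P181.PL5

open Vale.Agent.P181.T4 (ex low)
open Vale.Agent.P181.H463 (gt strips nxt)

lemma ex_val {l : ℕ} (g : Fin l → ℕ) (i : Fin l) : ex g i = g i := by
  unfold ex
  rw [dif_pos i.2]

lemma ex_out {l : ℕ} (g : Fin l → ℕ) {i : ℕ} (h : l ≤ i) : ex g i = 0 := by
  unfold ex
  rw [dif_neg (by omega)]

lemma ex_fn {l : ℕ} (g : ℕ → ℕ) (hg : ∀ i, l ≤ i → g i = 0) (i : ℕ) :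
    ex (fun j : Fin l => g j) i = g i := by
  unfold ex
  by_cases h : i < l
  · rw [dif_pos h]
  · rw [dif_neg h, hg i (by omega)]

lemma mem_strips_ex {n : ℕ} {lam mu : Fin n → ℕ} :
    mu ∈ strips lam ↔ ∀ i : ℕ, ex lam (i + 1) ≤ ex mu i ∧ ex mu i ≤ ex lam i := by
  unfold strips
  rw [Fintype.mem_piFinset]
  constructor
  · intro h i
    by_cases hi : i < n
    · have h1 := h ⟨i, hi⟩
      rw [Finset.mem_Icc] at h1
      have e1 : ex lam i = lam ⟨i, hi⟩ := ex_val lam ⟨i, hi⟩
      have e2 : ex mu i = mu ⟨i, hi⟩ := ex_val mu ⟨i, hi⟩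
      rw [e1, e2]
      exact h1
    · rw [ex_out lam (show n ≤ i + 1 by omega), ex_out lam (show n ≤ i by omega),
        ex_out mu (show n ≤ i by omega)]
      exact ⟨le_rfl, le_rfl⟩
  · intro h i
    have h1 := h i
    rw [Finset.mem_Icc]
    rw [ex_val lam i, ex_val mu i] at h1
    exact h1

lemma gt_le_pad : ∀ (J : ℕ) {k l : ℕ} (_ : k ≤ l) (f : Fin k → ℕ) (g : Fin l → ℕ),
    (∀ i : ℕ, ex g i = ex f i) → gt k J f ≤ gt l J g := by
  intro J
  induction J with
  | zero =>
    intro k l hkl f g h
    by_cases hf : f = 0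
    · have hg : g = 0 := by
        funext i
        have h1 := h i
        rw [ex_val g i, hf] at h1
        rw [h1]
        unfold ex
        split_ifs <;> rfl
      rw [gt, gt, if_pos hf, if_pos hg]
    · rw [gt, if_neg hf]
      exact Nat.zero_le _
  | succ J ih =>
    intro k l hkl f g h
    rw [gt, gt]
    have he : ∀ (mu : Fin k → ℕ) (i : ℕ), ex (fun j : Fin l => ex mu j) i = ex mu i := by
      intro mu i
      exact ex_fn (l := l) (ex mu) (fun i hi => ex_out mu (by omega)) i
    calc ∑ mu ∈ strips f, gt k J mu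
        ≤ ∑ mu ∈ strips f, gt l J (fun i : Fin l => ex mu i) :=
          Finset.sum_le_sum fun mu _ => ih hkl mu _ (he mu)
      _ = ∑ nu ∈ (strips f).image (fun mu => (fun i : Fin l => ex mu i)), gt l J nu := by
          rw [Finset.sum_image]
          intro mu _ mu' _ h'
          funext i
          have h1 := congrFun h' ⟨i, lt_of_lt_of_le i.2 hkl⟩
          simpa only [ex_val] using h1
      _ ≤ ∑ nu ∈ strips g, gt l J nu := by
          apply Finset.sum_le_sum_of_subset
          intro nu hnu
          rw [Finset.mem_image] at hnu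
          obtain ⟨mu, hmu, rfl⟩ := hnu
          rw [mem_strips_ex] at hmu ⊢
          intro i
          rw [he mu i, h, h]
          exact hmu i

/-- **One branching step**: `lam / nu` is a horizontal strip (in the rows `≥ R`). -/
lemma gt_branch {n J R : ℕ} {lam nu : Fin n → ℕ}
    (h1 : ∀ i : ℕ, R ≤ i → i < n → ex lam (i + 1) ≤ ex nu i)
    (h2 : ∀ i : ℕ, R + 1 ≤ i → i < n → ex nu i ≤ ex lam i) :
    gt (n - (R + 1)) J (low (R + 1) lam) ≤ gt (n - R) (J + 1) (low R nu) := by
  have hex : ∀ (S : ℕ) (f : Fin n → ℕ) (i : ℕ), ex (low S f) i = ex f (S + i) := by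
    intro S f i
    unfold low
    exact ex_fn (l := n - S) (fun i => ex f (S + i)) (fun i hi => ex_out f (by omega)) i
  obtain ⟨ka, hka⟩ : ∃ ka : Fin (n - R) → ℕ,
      ka = fun i : Fin (n - R) => ex lam (R + 1 + (i : ℕ)) := ⟨_, rfl⟩
  have hk : ∀ i, ex ka i = ex lam (R + 1 + i) := by
    intro i
    rw [hka]
    exact ex_fn (l := n - R) (fun i => ex lam (R + 1 + i)) (fun i hi => ex_out lam (by omega)) i
  calc gt (n - (R + 1)) J (low (R + 1) lam) ≤ gt (n - R) J ka := by
        apply gt_le_pad J (by omega)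
        intro i
        rw [hk, hex]
    _ ≤ ∑ mu ∈ strips (low R nu), gt (n - R) J mu := by
        apply Finset.single_le_sum (f := fun mu => gt (n - R) J mu)
          (fun _ _ => Nat.zero_le _)
        rw [mem_strips_ex]
        intro i
        rw [hk, hex, hex]
        constructor
        · by_cases h : R + (i + 1) < n
          · have := h2 (R + (i + 1)) (by omega) h
            rw [show R + 1 + i = R + (i + 1) by ring]
            exact this
          · rw [ex_out nu (by omega)]
            exact Nat.zero_le _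
        · by_cases h : R + i < n
          · have := h1 (R + i) (by omega) h
            rw [show R + 1 + i = R + i + 1 by ring]
            exact this
          · rw [ex_out lam (show n ≤ R + 1 + i by omega)]
            exact Nat.zero_le _
    _ = gt (n - R) (J + 1) (low R nu) := by rw [gt]

end Vale.Agent.P181.PL5
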